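import Vale.Agent.P106.A.Fin
import Vale.Agent.P106.A.D4f
import Vale.Agent.P106.B.NSb
import Vale.Agent.P106.C.EW

open MeasureTheory Complex Set
open scoped ENNReal NNReal FourierTransform SchwartzMap

namespace Vale.Agent.Results.P106.Axial

/-- three-dimensional euclidean space -/
abbrev R3 := EuclideanSpace ℝ (Fin 3)

/-- the function belongs to the Schwartz space of three variables -/
def IsSchwartz (f : R3 → ℂ) : Prop := ∃ g : 𝓢(R3, ℂ), (g : R3 → ℂ) = f

/-- the Fourier transform without the factor 2π in the exponent -/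
noncomputable def ft (f : R3 → ℂ) (ξ : R3) : ℂ :=
  ∫ x : R3, cexp (-(I * ((inner ℝ x ξ : ℝ) : ℂ))) * f x

/-- the half-wave evolution -/
noncomputable def halfWave (f : R3 → ℂ) (x : R3) (t : ℝ) : ℂ :=
  ((1 / (2 * Real.pi) ^ 3 : ℝ) : ℂ) *
    ∫ ξ : R3, cexp (I * ((inner ℝ x ξ + t * ‖ξ‖ : ℝ) : ℂ)) * ft f ξ

/-- the Fourier multiplier with symbol (1 + |ξ|^2)^(α/2) -/
noncomputable def bessel (α : ℝ) (f : R3 → ℂ) (x : R3) : ℂ :=
  ((1 / (2 * Real.pi) ^ 3 : ℝ) : ℂ) *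
    ∫ ξ : R3, cexp (I * ((inner ℝ x ξ : ℝ) : ℂ)) * ((((1 + ‖ξ‖ ^ 2) ^ (α / 2) : ℝ) : ℂ) * ft f ξ)

/-- the norm of the Lebesgue space of exponent p on the whole space -/
noncomputable def lpNorm (p : ℝ) (f : R3 → ℂ) : ℝ≥0∞ := eLpNorm f (ENNReal.ofReal p) volume

/-- the norm of the Lebesgue space of exponent p on the product of the space and the time interval [1,2] -/
noncomputable def slabNorm (p : ℝ) (u : R3 → ℝ → ℂ) : ℝ≥0∞ :=
  eLpNorm (fun z : R3 × ℝ => u z.1 z.2) (ENNReal.ofReal p) (volume.restrict (univ ×ˢ Icc (1:ℝ) 2))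

/-- the function only depends on the third coordinate and on the distance to the third axis -/
def AxiallySymmetric (f : R3 → ℂ) : Prop :=
  ∀ x y : R3, x 2 = y 2 → x 0 ^ 2 + x 1 ^ 2 = y 0 ^ 2 + y 1 ^ 2 → f x = f y

/-- rotation by the angle phi about the third axis -/
noncomputable def rotate (φ : ℝ) (x : R3) : R3 :=
  !₂[Real.cos φ * x 0 - Real.sin φ * x 1, Real.sin φ * x 0 + Real.cos φ * x 1, x 2]

/-- the derivative of order n in the angle about the third axis -/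
noncomputable def angularDeriv (n : ℕ) (f : R3 → ℂ) (x : R3) : ℂ :=
  iteratedDeriv n (fun φ : ℝ => f (rotate φ x)) 0

theorem equi_zero {f : R3 → ℂ} (hf : AxiallySymmetric f) : Vale.Agent.P117.Equi 0 f := by
  intro φ x
  have h := hf (Vale.Agent.P117.rot φ x) x (Vale.Agent.P117.rot_two' φ x) (by
    rw [Vale.Agent.P117.rot_zero', Vale.Agent.P117.rot_one']
    have h := Real.sin_sq_add_cos_sq φ
    linear_combination (x 0 ^ 2 + x 1 ^ 2) * h)
  rw [h]
  simp

theorem angularDeriv_eq (n : ℕ) (f : 𝓢(R3, ℂ)) :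
    angularDeriv n f = ((Vale.Agent.P117.Dth ^ n) f : R3 → ℂ) := by
  ext x
  have h := Vale.Agent.P117.iteratedDeriv_orbit f x n 0
  rw [Vale.Agent.P117.rot_zero_apply] at h
  exact h

theorem bessel_eq (α : ℝ) (f : 𝓢(R3, ℂ)) : bessel α f = (Vale.Agent.P106.jS α f : R3 → ℂ) := by
  rw [Vale.Agent.P106.jS_eq]
  ext x
  unfold bessel ft
  rw [Vale.Agent.P106.norml (f : R3 → ℂ) (fun ξ => (((1 + ‖ξ‖ ^ 2) ^ (α / 2) : ℝ) : ℂ)) x]
  have e : (fun η : R3 => (((1 + ‖(2 * Real.pi) • η‖ ^ 2) ^ (α / 2) : ℝ) : ℂ) * 𝓕 (f : R3 → ℂ) η) =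
      fun η => Vale.Agent.P106.jw α η * 𝓕 (f : R3 → ℂ) η := by
    ext η
    unfold Vale.Agent.P106.jw
    have hpi := Real.pi_pos
    rw [norm_smul, Real.norm_of_nonneg (by positivity)]
    have : 1 + (2 * Real.pi * ‖η‖) ^ 2 = 1 + 4 * Real.pi ^ 2 * ‖η‖ ^ 2 := by ring
    rw [this]
  rw [e]

theorem halfWave_eq (α : ℝ) (f : 𝓢(R3, ℂ)) (x : R3) (t : ℝ) :
    halfWave f x t = Vale.Agent.P106.uu α (Vale.Agent.P106.jS α f) t x := by
  rw [Vale.Agent.P106.uu_jS]
  unfold halfWave ft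
  have h := Vale.Agent.P106.norml (f : R3 → ℂ) (fun ξ => cexp (I * ((t * ‖ξ‖ : ℝ) : ℂ))) x
  have e1 : (fun η : R3 => cexp (I * ((t * ‖(2 * Real.pi) • η‖ : ℝ) : ℂ)) * 𝓕 (f : R3 → ℂ) η) =
      fun η => cexp (2 * Real.pi * I * (t * ‖η‖ : ℝ)) * 𝓕 (f : R3 → ℂ) η := by
    ext η
    have hpi := Real.pi_pos
    rw [norm_smul, Real.norm_of_nonneg (by positivity)]
    congr 2
    push_cast
    ring
  rw [e1] at h
  rw [← h]
  congr 1
  congr 1
  ext ξ
  rw [← mul_assoc, ← Complex.exp_add]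
  congr 2
  push_cast
  ring

theorem slab_eq (p : ℝ) (α : ℝ) (f : 𝓢(R3, ℂ)) : slabNorm p (halfWave f) =
    eLpNorm (fun z : ℝ × R3 => Vale.Agent.P106.uu α (Vale.Agent.P106.jS α f) z.1 z.2) (ENNReal.ofReal p)
      Vale.Agent.P106.muS := by
  unfold slabNorm Vale.Agent.P106.muS
  have h1 : (volume.restrict (univ ×ˢ Icc (1:ℝ) 2) : Measure (R3 × ℝ)) =
      (volume : Measure R3).prod (volume.restrict (Icc (1:ℝ) 2)) := by
    rw [Measure.volume_eq_prod, ← Measure.prod_restrict, Measure.restrict_univ]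
  rw [h1]
  have h2 : MeasurePreserving (Prod.swap : R3 × ℝ → ℝ × R3)
      ((volume : Measure R3).prod (volume.restrict (Icc (1:ℝ) 2)))
      ((volume.restrict (Icc (1:ℝ) 2)).prod (volume : Measure R3)) := Measure.measurePreserving_swap
  have h3 := (MeasurableEquiv.prodComm (α := R3) (β := ℝ)).measurableEmbedding.eLpNorm_map_measure
    (p := ENNReal.ofReal p) (μ := (volume : Measure R3).prod (volume.restrict (Icc (1:ℝ) 2)))
    (g := fun z : ℝ × R3 => Vale.Agent.P106.uu α (Vale.Agent.P106.jS α f) z.1 z.2)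
  have h4 : Measure.map (MeasurableEquiv.prodComm (α := R3) (β := ℝ))
      ((volume : Measure R3).prod (volume.restrict (Icc (1:ℝ) 2))) =
      (volume.restrict (Icc (1:ℝ) 2)).prod (volume : Measure R3) := h2.map_eq
  rw [h4] at h3
  rw [h3]
  congr 1
  ext z
  exact halfWave_eq α f z.1 z.2

/-- **Sogge's local smoothing conjecture in three space dimensions** for axially symmetric functions, and for all
functions with a loss of finitely many derivatives in the angle about one fixed axis. -/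
theorem result (p : ℝ) (hp : 2 < p) (α : ℝ) (hα : max 0 (1 - 3 / p) < α) :
    (∃ C : ℝ≥0, ∀ f : R3 → ℂ, IsSchwartz f → AxiallySymmetric f →
      slabNorm p (halfWave f) ≤ C * lpNorm p (bessel α f)) ∧
    (∃ (N : ℕ) (C : ℝ≥0), ∀ f : R3 → ℂ, IsSchwartz f →
      slabNorm p (halfWave f) ≤ C * (lpNorm p (bessel α f) + lpNorm p (angularDeriv N (bessel α f)))) := by
  have hα' : max (1 - 3 * (1 / p)) 0 < α := by
    rw [max_comm]
    have : 3 * (1 / p) = 3 / p := by ring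
    rw [this]
    exact hα
  obtain ⟨hD2, hD3⟩ := Vale.Agent.P106.stD4 Vale.Agent.P106.stNS Vale.Agent.P106.C.ew_final
  constructor
  · obtain ⟨K, C, hC, h⟩ := Vale.Agent.P106.mode_LS hD2 hD3 hp hα'
    refine ⟨Real.toNNReal C, ?_⟩
    rintro _ ⟨f, rfl⟩ hf
    have he : Vale.Agent.P117.Equi 0 (Vale.Agent.P106.jS α f : R3 → ℂ) := by
      rw [Vale.Agent.P106.jS_eq]
      exact Vale.Agent.P106.fi_equi (equi_zero hf)
        (fun r => (((1 + 4 * Real.pi ^ 2 * r ^ 2) ^ (α / 2) : ℝ) : ℂ))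
    have h1 := h 0 _ (Vale.Agent.P117.adm_sch (Vale.Agent.P106.jS α f))
      (Vale.Agent.P117.fint_sch (Vale.Agent.P106.jS α f)) he
    rw [slab_eq p α, bessel_eq]
    unfold lpNorm
    refine h1.trans (le_of_eq ?_)
    simp [ENNReal.ofReal]
  · obtain ⟨N, C, hC, h⟩ := Vale.Agent.P106.all_LS hD2 hD3 hp hα'
    refine ⟨N, Real.toNNReal C, ?_⟩
    rintro _ ⟨f, rfl⟩
    have h1 := h (Vale.Agent.P106.jS α f)
    rw [slab_eq p α, bessel_eq, angularDeriv_eq]
    unfold lpNorm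
    exact h1

end Vale.Agent.Results.P106.Axial
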