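import Vale.Agent.P106.Z.Question1
import Vale.Agent.P106.H499.LongD

/-!
# P106, Question 1 : the sharp local smoothing exponent in three space dimensions

For every `p > 2` the local smoothing estimate holds for all `α > max 0 (1 - 3/p)`, on every compact time interval, and it
fails for all `α < max 0 (1 - 3/p)`; so `α(p) = max 0 (1 - 3/p)`.
-/

set_option autoImplicit false

namespace Vale.Agent.Results.P106.FullSharp

open Vale.Agent.P106.H499.D

/-- **Theorem.** For all real `p > 2`: (1) the local smoothing estimate holds for every `α > max 0 (1 - 3/p)`, on every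
compact time interval `[a,b]`; (2) `(LS_{p,α})` fails for every `α < max 0 (1 - 3/p)`; (3) so the greatest lower bound
`α(p)` of the set of all `α` for which `(LS_{p,α})` holds is `max 0 (1 - 3/p)`. -/
theorem result :
    (∀ p α a b : ℝ, 2 < p → max 0 (1 - 3 / p) < α → LS p α a b) ∧
    (∀ p α : ℝ, 2 < p → α < max 0 (1 - 3 / p) → ¬ LS p α 1 2) ∧
    (∀ p : ℝ, 2 < p → IsGLB {α : ℝ | LS p α 1 2} (max 0 (1 - 3 / p))) :=
  Vale.Agent.P106.H499.all_of_question1 Vale.Agent.P106.Z.question1

end Vale.Agent.Results.P106.FullSharp
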