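import Vale.Agent.P106.Q.FinQ
import Vale.Agent.P106.Q.Kak
import Vale.Agent.P106.Q.Rec
import Vale.Agent.P106.Q.BGL
import Vale.Agent.P106.Q.BRD
import Vale.Agent.P127.U.Lam.Final

open MeasureTheory Complex Set
open scoped ENNReal NNReal FourierTransform SchwartzMap

namespace Vale.Agent.Results.P106.Quarter

/-- three-dimensional euclidean space -/
abbrev R3 := EuclideanSpace ℝ (Fin 3)

/-- the function belongs to the Schwartz space of three variables -/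
def IsSchwartz (f : R3 → ℂ) : Prop := ∃ g : 𝓢(R3, ℂ), (g : R3 → ℂ) = f

/-- the Fourier transform without the factor 2π in the exponent -/
noncomputable def ft (f : R3 → ℂ) (ξ : R3) : ℂ :=
  ∫ x : R3, cexp (-(I * ((inner ℝ x ξ : ℝ) : ℂ))) * f x

/-- the half-wave evolution -/
noncomputable def halfWave (f : R3 → ℂ) (x : R3) (t : ℝ) : ℂ :=
  ((1 / (2 * Real.pi) ^ 3 : ℝ) : ℂ) *
    ∫ ξ : R3, cexp (I * ((inner ℝ x ξ + t * ‖ξ‖ : ℝ) : ℂ)) * ft f ξ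

/-- the Fourier multiplier with symbol (1 + |ξ|^2)^(α/2) -/
noncomputable def bessel (α : ℝ) (f : R3 → ℂ) (x : R3) : ℂ :=
  ((1 / (2 * Real.pi) ^ 3 : ℝ) : ℂ) *
    ∫ ξ : R3, cexp (I * ((inner ℝ x ξ : ℝ) : ℂ)) * ((((1 + ‖ξ‖ ^ 2) ^ (α / 2) : ℝ) : ℂ) * ft f ξ)

/-- the norm of the Lebesgue space of exponent p on the whole space -/
noncomputable def lpNorm (p : ℝ) (f : R3 → ℂ) : ℝ≥0∞ := eLpNorm f (ENNReal.ofReal p) volume

/-- the norm of the Lebesgue space of exponent p on the product of the space and the time interval [1,2] -/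
noncomputable def slabNorm (p : ℝ) (u : R3 → ℝ → ℂ) : ℝ≥0∞ :=
  eLpNorm (fun z : R3 × ℝ => u z.1 z.2) (ENNReal.ofReal p) (volume.restrict (univ ×ˢ Icc (1:ℝ) 2))

/-- the local smoothing estimate (LS_{p,α}) with a finite constant, for all Schwartz functions -/
def LS (p α : ℝ) : Prop :=
  ∃ C : ℝ≥0, ∀ f : R3 → ℂ, IsSchwartz f → slabNorm p (halfWave f) ≤ C * lpNorm p (bessel α f)

theorem LS_iff (p α : ℝ) : LS p α ↔ Vale.Agent.P106.G.LpgFin.LS p α := Iff.rfl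

/-- **Theorem.** (1) `(LS_{p,α})` holds for `2 < p ≤ 24/11` and every `α > (1/4)(1/2 - 1/p)`. (2) `(LS_{p,α})` holds for
`24/11 ≤ p ≤ 12/5` and every `α > (1/2)(1/2 - 1/p) - (1/4)(1/p - 5/12)`. (3) If `(LS_{10/3,α})` holds for every
`α > 1/10`, then `(LS_{p,α})` holds for `24/11 ≤ p ≤ 10/3` and every `α > (1/2)(1/2 - 1/p) - (5/76)(1/p - 3/10)`,
in particular for `p = 3` and every `α > 37/456`. -/
theorem result :
    (∀ p α : ℝ, 2 < p → p ≤ 24 / 11 → 1 / 4 * (1 / 2 - 1 / p) < α → LS p α) ∧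
    (∀ p α : ℝ, 24 / 11 ≤ p → p ≤ 12 / 5 → 1 / 2 * (1 / 2 - 1 / p) - 1 / 4 * (1 / p - 5 / 12) < α → LS p α) ∧
    ((∀ α : ℝ, 1 / 10 < α → LS (10 / 3) α) →
      (∀ p α : ℝ, 24 / 11 ≤ p → p ≤ 10 / 3 → 1 / 2 * (1 / 2 - 1 / p) - 5 / 76 * (1 / p - 3 / 10) < α → LS p α) ∧
      (∀ α : ℝ, 37 / 456 < α → LS 3 α)) :=
  Vale.Agent.P106.Q.finQ_14 (Vale.Agent.P106.Q.nikr_12 Vale.Agent.P106.Q.RecQ.stREC Vale.Agent.P106.Q.stBGL
    Vale.Agent.P106.Q.stBRD' fun r h1 h2 => Vale.Agent.P106.Q.flt_zero Vale.Agent.P127.U.Final.jf2 h1 (by linarith))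

end Vale.Agent.Results.P106.Quarter
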